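import Mathlib
import Vale.Agent.P237.Gen.Defs

/-!
Fibres of a convex body of `ℝ³` along the first coordinate, and the reduction of `pA` to the
area of the coordinate projection.
-/

open MeasureTheory Set Pointwise

namespace Vale.Agent.P237.Gen.Mx

noncomputable section

variable {n : ℕ}

/-- Forget the first coordinate. -/
def tl (x : (Fin (n + 1) → ℝ)) : (Fin n → ℝ) := fun i => x i.succ

/-- The projection along `e0`. -/
def proj (K : Set (Fin (n + 1) → ℝ)) : Set (Fin n → ℝ) := tl '' K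

/-- The fibre above `y`. -/
def fib (K : Set (Fin (n + 1) → ℝ)) (y : (Fin n → ℝ)) : Set ℝ := {t | (Fin.cons t y : (Fin (n + 1) → ℝ)) ∈ K}

/-- The points whose fibre has length at least `s`. -/
def lvl (K : Set (Fin (n + 1) → ℝ)) (s : ℝ) : Set (Fin n → ℝ) := tl '' (K ∩ (fun x => x + s • e0) ⁻¹' K)

theorem continuous_tl : Continuous (tl (n := n)) := by unfold tl; fun_prop

theorem cons_tl (x : (Fin (n + 1) → ℝ)) : (Fin.cons (x 0) (tl x) : (Fin (n + 1) → ℝ)) = x := by
  funext i
  refine Fin.cases ?_ (fun j => ?_) i <;> simp [tl]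

theorem tl_cons (t : ℝ) (y : (Fin n → ℝ)) : tl (Fin.cons t y) = y := by
  funext i; simp [tl]

theorem cons_add_axis (t s : ℝ) (y : (Fin n → ℝ)) :
    (Fin.cons t y : (Fin (n + 1) → ℝ)) + s • e0 = Fin.cons (t + s) y := by
  funext i
  refine Fin.cases ?_ (fun j => ?_) i <;> simp [e0]

theorem tl_add_axis (x : (Fin (n + 1) → ℝ)) (s : ℝ) : tl (x + s • e0) = tl x := by
  funext i; simp [tl, e0]

theorem mem_proj_iff {K : Set (Fin (n + 1) → ℝ)} {y : (Fin n → ℝ)} : y ∈ proj K ↔ (fib K y).Nonempty := by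
  constructor
  · rintro ⟨x, hx, rfl⟩
    exact ⟨x 0, by simpa [fib, cons_tl] using hx⟩
  · rintro ⟨t, ht⟩
    exact ⟨_, ht, tl_cons t y⟩

theorem isCompact_fib {K : Set (Fin (n + 1) → ℝ)} (hK : IsCompact K) (y : (Fin n → ℝ)) : IsCompact (fib K y) := by
  refine (hK.image (continuous_apply (0 : Fin (n + 1)))).of_isClosed_subset ?_ fun t ht => ⟨_, ht, rfl⟩
  refine hK.isClosed.preimage (continuous_pi fun i => ?_)
  refine Fin.cases ?_ (fun j => ?_) i <;> simp [continuous_const]
  exact continuous_id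

theorem convex_fib {K : Set (Fin (n + 1) → ℝ)} (hc : Convex ℝ K) (y : (Fin n → ℝ)) : Convex ℝ (fib K y) := by
  intro a ha b hb p q hp hq hpq
  show (Fin.cons (p • a + q • b) y : (Fin (n + 1) → ℝ)) ∈ K
  convert hc ha hb hp hq hpq using 1
  funext i
  refine Fin.cases ?_ (fun j => ?_) i <;> simp [← add_mul, hpq]

theorem fib_eq_Icc {K : Set (Fin (n + 1) → ℝ)} (hc : Convex ℝ K) (hK : IsCompact K) {y : (Fin n → ℝ)}
    (h : (fib K y).Nonempty) :
    ∃ a b, a ≤ b ∧ fib K y = Icc a b := by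
  have e := eq_Icc_of_connected_compact ((convex_fib hc y).isConnected h) (isCompact_fib hK y)
  refine ⟨_, _, ?_, e⟩
  obtain ⟨t, ht⟩ := h
  rw [e] at ht
  exact ht.1.trans ht.2

/-- Fubini along the first coordinate. -/
theorem volume_eq_lintegral_fib {K : Set (Fin (n + 1) → ℝ)} (hK : MeasurableSet K) :
    volume K = ∫⁻ y : (Fin n → ℝ), volume (fib K y) ∧ Measurable fun y : (Fin n → ℝ) => volume (fib K y) := by
  have hmp := (volume_preserving_piFinSuccAbove (fun _ : Fin (n + 1) => ℝ) 0).symm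
  set e := (MeasurableEquiv.piFinSuccAbove (fun _ : Fin (n + 1) => ℝ) 0).symm with he
  have hfib : ∀ y : (Fin n → ℝ), fib K y = (fun t => (t, y)) ⁻¹' (e ⁻¹' K) := by
    intro y; ext t
    simp [fib, he, Fin.consEquiv]
  have hm : MeasurableSet (e ⁻¹' K) := e.measurable hK
  constructor
  · calc volume K = volume (e ⁻¹' K) := (hmp.measure_preimage_equiv K).symm
      _ = _ := by
        rw [Measure.volume_eq_prod, Measure.prod_apply_symm hm]
        simp only [hfib]
  · simp only [hfib]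
    exact measurable_measure_prodMk_right hm

theorem isCompact_seg (u : (Fin (n + 1) → ℝ)) : IsCompact (seg u) :=
  isCompact_Icc.image (by fun_prop)

theorem convex_seg (u : (Fin (n + 1) → ℝ)) : Convex ℝ (seg u) :=
  (convex_Icc _ _).linear_image (LinearMap.toSpanSingleton ℝ (Fin (n + 1) → ℝ) u)

theorem zero_mem_seg (u : (Fin (n + 1) → ℝ)) : (0 : (Fin (n + 1) → ℝ)) ∈ seg u := ⟨0, by simp, zero_smul ℝ u⟩

/-- Adding a segment along the axis. -/
theorem volume_add_seg_axis {K : Set (Fin (n + 1) → ℝ)} (hc : Convex ℝ K) (hK : IsCompact K) {r : ℝ}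
    (hr : 0 ≤ r) :
    volume.real (K + seg (r • e0)) = volume.real K + 2 * r * volume.real (proj K) := by
  have hM : IsCompact (K + seg (r • e0)) := hK.add (isCompact_seg _)
  have key : ∀ y, volume (fib (K + seg (r • e0)) y)
      = volume (fib K y) + (proj K).indicator (fun _ => ENNReal.ofReal (2 * r)) y := by
    intro y
    by_cases hy : y ∈ proj K
    · obtain ⟨a, b, hab, e⟩ := fib_eq_Icc hc hK (mem_proj_iff.1 hy)
      have : fib (K + seg (r • e0)) y = Icc (a - r) (b + r) := by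
        ext t
        constructor
        · rintro ⟨k, hk, _, ⟨c, hc', rfl⟩, h⟩
          simp only [smul_smul] at h
          have hk' : k = Fin.cons (t - c * r) y := by
            rw [show t - c * r = t + -(c * r) by ring, ← cons_add_axis, ← h, neg_smul]
            abel
          have : t - c * r ∈ fib K y := by
            show (Fin.cons (t - c * r) y : (Fin (n + 1) → ℝ)) ∈ K
            rwa [← hk']
          rw [e] at this
          obtain ⟨h1, h2⟩ := this
          constructor <;> nlinarith [hc'.1, hc'.2]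
        · rintro ⟨h1, h2⟩
          obtain ⟨k, hk, hd⟩ : ∃ k ∈ fib K y, |t - k| ≤ r := by
            refine ⟨max a (min b t), by rw [e]; exact ⟨le_max_left _ _, max_le hab (min_le_left _ _)⟩,
              abs_le.2 ⟨?_, ?_⟩⟩
            · rcases max_cases a (min b t) with h | h <;> rcases min_cases b t with h' | h' <;>
                linarith [h.1, h'.1]
            · rcases max_cases a (min b t) with h | h <;> rcases min_cases b t with h' | h' <;>
                linarith [h.1, h'.1]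
          refine ⟨_, hk, _, ⟨(t - k) / r, ?_, rfl⟩, ?_⟩
          · rcases hr.eq_or_lt with hr0 | hr0
            · simp [← hr0]
            · exact ⟨by rw [le_div_iff₀ hr0]; linarith [(abs_le.1 hd).1],
                by rw [div_le_iff₀ hr0]; linarith [(abs_le.1 hd).2]⟩
          · rcases hr.eq_or_lt with hr0 | hr0
            · have : t - k = 0 := by
                rw [← hr0] at hd; exact abs_eq_zero.1 (le_antisymm hd (abs_nonneg _))
              simp [← hr0, show k = t by linarith]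
            · simp only [smul_smul]
              rw [div_mul_cancel₀ _ hr0.ne', cons_add_axis]
              congr 1; ring
      rw [this, e, indicator_of_mem hy, Real.volume_Icc, Real.volume_Icc,
        ← ENNReal.ofReal_add (by linarith) (by linarith)]
      congr 1; ring
    · have h1 : fib K y = ∅ := not_nonempty_iff_eq_empty.1 (mt mem_proj_iff.2 hy)
      have h2 : fib (K + seg (r • e0)) y = ∅ := by
        refine eq_empty_of_forall_notMem fun t ht => hy ?_
        obtain ⟨k, hk, _, ⟨c, -, rfl⟩, h⟩ := ht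
        refine ⟨k, hk, ?_⟩
        rw [← tl_cons t y, ← h]
        simp [smul_smul, tl_add_axis]
      simp [h1, h2, indicator_of_notMem hy]
  have hP : IsCompact (proj K) := hK.image continuous_tl
  obtain ⟨hv, hmK⟩ := volume_eq_lintegral_fib hK.isClosed.measurableSet
  have h : volume (K + seg (r • e0)) = volume K + ENNReal.ofReal (2 * r) * volume (proj K) := by
    rw [(volume_eq_lintegral_fib hM.isClosed.measurableSet).1, hv]
    simp only [key]
    rw [lintegral_add_left hmK, lintegral_indicator_const hP.isClosed.measurableSet]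
  rw [measureReal_def, h, ENNReal.toReal_add hK.measure_lt_top.ne
    (ENNReal.mul_ne_top ENNReal.ofReal_ne_top hP.measure_lt_top.ne), ENNReal.toReal_mul,
    ENNReal.toReal_ofReal (by positivity)]
  rfl

theorem pA_axis {K : Set (Fin (n + 1) → ℝ)} (hc : Convex ℝ K) (hK : IsCompact K) {r : ℝ} (hr : 0 ≤ r) :
    pA K (r • e0) = r * volume.real (proj K) := by
  rw [pA, volume_add_seg_axis hc hK hr]; ring

/-- A linear change of variables sending `e0` to `u`. -/
theorem exists_axis_map {u : (Fin (n + 1) → ℝ)} (hu : u ≠ 0) : ∃ T : (Fin (n + 1) → ℝ) ≃ₗ[ℝ] (Fin (n + 1) → ℝ), T e0 = u := by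
  obtain ⟨i, hi⟩ : ∃ i, u i ≠ 0 := by
    by_contra! h; exact hu (funext h)
  set σ := Equiv.swap (0 : Fin (n + 1)) i with hσ
  let L : (Fin (n + 1) → ℝ) →ₗ[ℝ] (Fin (n + 1) → ℝ) :=
    { toFun := fun x j => u j * x 0 + if j = i then 0 else x (σ j)
      map_add' := fun x y => by
        funext j; by_cases h : j = i <;> simp [h] <;> ring
      map_smul' := fun c x => by
        funext j; by_cases h : j = i <;> simp [h] <;> ring }
  have hinj : Function.Injective L := by
    rw [← LinearMap.ker_eq_bot, LinearMap.ker_eq_bot']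
    intro x hx
    have h0 : x 0 = 0 := by
      have := congrFun hx i
      simpa [L, hi] using this
    funext k
    by_cases hk : k = 0
    · simpa [hk] using h0
    have hj : σ k ≠ i := fun h => hk (σ.injective (h.trans (Equiv.swap_apply_left 0 i).symm))
    have := congrFun hx (σ k)
    have hj' : Equiv.swap (0 : Fin (n + 1)) i k ≠ i := hj
    simpa [L, hj', h0, hσ] using this
  refine ⟨LinearEquiv.ofInjectiveEndo L hinj, ?_⟩
  rw [LinearEquiv.coe_ofInjectiveEndo]
  funext j
  have h0 : j ≠ i → σ j ≠ 0 := fun hj h => hj (σ.injective (h.trans (Equiv.swap_apply_right 0 i).symm))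
  by_cases h : j = i
  · simp [L, e0, h]
  · simp [L, e0, h, Pi.single_eq_of_ne (h0 h)]

theorem volume_real_image (T : (Fin (n + 1) → ℝ) ≃ₗ[ℝ] (Fin (n + 1) → ℝ)) (K : Set (Fin (n + 1) → ℝ)) :
    volume.real (T '' K) = |LinearMap.det (T : (Fin (n + 1) → ℝ) →ₗ[ℝ] (Fin (n + 1) → ℝ))| * volume.real K := by
  rw [measureReal_def, show T '' K = (T : (Fin (n + 1) → ℝ) →ₗ[ℝ] (Fin (n + 1) → ℝ)) '' K from rfl,
    Measure.addHaar_image_linearMap, ENNReal.toReal_mul, ENNReal.toReal_ofReal (abs_nonneg _)]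
  rfl

theorem image_seg (T : (Fin (n + 1) → ℝ) →ₗ[ℝ] (Fin (n + 1) → ℝ)) (v : (Fin (n + 1) → ℝ)) : T '' seg v = seg (T v) := by
  simp [seg, image_image]

theorem pA_image (T : (Fin (n + 1) → ℝ) ≃ₗ[ℝ] (Fin (n + 1) → ℝ)) (K : Set (Fin (n + 1) → ℝ)) (v : (Fin (n + 1) → ℝ)) :
    pA (T '' K) (T v) = |LinearMap.det (T : (Fin (n + 1) → ℝ) →ₗ[ℝ] (Fin (n + 1) → ℝ))| * pA K v := by
  have h : T '' K + seg (T v) = T '' (K + seg v) := by
    rw [image_add T, show T '' seg v = seg (T v) from image_seg (T : (Fin (n + 1) → ℝ) →ₗ[ℝ] (Fin (n + 1) → ℝ)) v]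
  rw [pA, pA, h, volume_real_image, volume_real_image]
  ring

theorem det_pos_abs (T : (Fin (n + 1) → ℝ) ≃ₗ[ℝ] (Fin (n + 1) → ℝ)) : 0 < |LinearMap.det (T : (Fin (n + 1) → ℝ) →ₗ[ℝ] (Fin (n + 1) → ℝ))| :=
  abs_pos.2 (LinearEquiv.isUnit_det' T).ne_zero

theorem image_symm_image' (T : (Fin (n + 1) → ℝ) ≃ₗ[ℝ] (Fin (n + 1) → ℝ)) (K : Set (Fin (n + 1) → ℝ)) : T '' (T.symm '' K) = K := by
  simp [image_image]

theorem body_map {K : Set (Fin (n + 1) → ℝ)} (hK : Body K) (T : (Fin (n + 1) → ℝ) ≃ₗ[ℝ] (Fin (n + 1) → ℝ)) : Body (T '' K) := by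
  let e := T.toContinuousLinearEquiv.toHomeomorph
  refine ⟨hK.1.linear_image (T : (Fin (n + 1) → ℝ) →ₗ[ℝ] (Fin (n + 1) → ℝ)), hK.2.1.image e.continuous, ?_⟩
  have : e '' interior K = interior (e '' K) := e.image_interior K
  show (0 : (Fin (n + 1) → ℝ)) ∈ interior (e '' K)
  rw [← this]
  exact ⟨0, hK.2.2, map_zero T⟩

/-- `pA` along `u` is a projection area in suitable coordinates. -/
theorem exists_pA_eq {u : (Fin (n + 1) → ℝ)} (hu : u ≠ 0) :
    ∃ T : (Fin (n + 1) → ℝ) ≃ₗ[ℝ] (Fin (n + 1) → ℝ), T e0 = u ∧ ∀ K : Set (Fin (n + 1) → ℝ), Convex ℝ K → IsCompact K → ∀ r : ℝ, 0 ≤ r →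
      pA K (r • u) = |LinearMap.det (T : (Fin (n + 1) → ℝ) →ₗ[ℝ] (Fin (n + 1) → ℝ))| * (r * volume.real (proj (T.symm '' K))) := by
  obtain ⟨T, hT⟩ := exists_axis_map hu
  refine ⟨T, hT, fun K hc hk r hr => ?_⟩
  have h := pA_image T (T.symm '' K) (r • e0)
  rw [image_symm_image', map_smul, hT] at h
  rw [h]
  exact congrArg _ (pA_axis (hc.linear_image (T.symm : (Fin (n + 1) → ℝ) →ₗ[ℝ] (Fin (n + 1) → ℝ)))
    (hk.image T.symm.toContinuousLinearEquiv.continuous) hr)

theorem pA_zero {K : Set (Fin (n + 1) → ℝ)} : pA K 0 = 0 := by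
  have : seg (0 : (Fin (n + 1) → ℝ)) = {0} := by
    ext x; constructor
    · rintro ⟨c, -, rfl⟩; simp
    · rintro rfl; exact zero_mem_seg 0
  simp [pA, this]

theorem pA_mono {K L : Set (Fin (n + 1) → ℝ)} (hK : Convex ℝ K) (hKc : IsCompact K) (hL : Convex ℝ L)
    (hLc : IsCompact L) (h : K ⊆ L) (u : (Fin (n + 1) → ℝ)) : pA K u ≤ pA L u := by
  by_cases hu : u = 0
  · simp [hu, pA_zero]
  obtain ⟨T, -, hf⟩ := exists_pA_eq hu
  have e1 := hf K hK hKc 1 zero_le_one
  have e2 := hf L hL hLc 1 zero_le_one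
  rw [one_smul, one_mul] at e1 e2
  rw [e1, e2]
  refine mul_le_mul_of_nonneg_left (measureReal_mono (image_mono (image_mono h)) ?_) (abs_nonneg _)
  exact ((hLc.image T.symm.toContinuousLinearEquiv.continuous).image continuous_tl).measure_lt_top.ne

theorem pA_dilate {K : Set (Fin (n + 1) → ℝ)} (hK : Convex ℝ K) (hKc : IsCompact K) {c : ℝ} (hc : 0 ≤ c)
    (u : (Fin (n + 1) → ℝ)) : pA (c • K) u = c ^ n * pA K u := by
  by_cases hu : u = 0
  · simp [hu, pA_zero]
  obtain ⟨T, -, hf⟩ := exists_pA_eq hu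
  have e1 := hf (c • K) (hK.smul c) (hKc.smul c) 1 zero_le_one
  have e2 := hf K hK hKc 1 zero_le_one
  rw [one_smul, one_mul] at e1 e2
  have h : proj (T.symm '' (c • K)) = c • proj (T.symm '' K) := by
    simp only [proj, ← image_smul, image_image, map_smul]
    rfl
  rw [e1, e2, h, measureReal_def, Measure.addHaar_smul_of_nonneg volume hc, ENNReal.toReal_mul,
    ENNReal.toReal_ofReal (pow_nonneg hc _), Module.finrank_pi, Fintype.card_fin, measureReal_def]
  ring

end

end Vale.Agent.P237.Gen.Mx
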