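import Mathlib
import Vale.Agent.P237.Gen.Mixed.Fibre
import Vale.Agent.P254.BM

/-!
Bonnesen's inequality along the first coordinate: match the fibre-length levels of the two bodies
by the fraction of projected area, then use planar Brunn-Minkowski and the layer-cake formula.
-/

open MeasureTheory Set Pointwise Function

namespace Vale.Agent.P237.Gen.Mx

noncomputable section

variable {n : ℕ}

/-- The `n`-th root. -/
def rt (n : ℕ) (x : ℝ) : ℝ := x ^ ((n : ℝ)⁻¹)

theorem rt_nonneg {x : ℝ} (hx : 0 ≤ x) : 0 ≤ rt n x := Real.rpow_nonneg hx _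

theorem rt_pos {x : ℝ} (hx : 0 < x) : 0 < rt n x := Real.rpow_pos_of_pos hx _

theorem rt_pow (hn : n ≠ 0) {x : ℝ} (hx : 0 ≤ x) : rt n x ^ n = x :=
  Real.rpow_inv_natCast_pow hx hn

theorem rt_mono {x y : ℝ} (hx : 0 ≤ x) (h : x ≤ y) : rt n x ≤ rt n y :=
  Real.rpow_le_rpow hx h (inv_nonneg.2 n.cast_nonneg)

theorem rt_mul {x y : ℝ} (hx : 0 ≤ x) (hy : 0 ≤ y) : rt n (x * y) = rt n x * rt n y :=
  Real.mul_rpow hx hy

/-- Brunn-Minkowski for nonempty convex compact sets. -/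
theorem root_bm (hn : n ≠ 0) {S S' : Set (Fin n → ℝ)} (hS : Convex ℝ S) (hSc : IsCompact S)
    (hS' : Convex ℝ S') (hS'c : IsCompact S') (hne : S.Nonempty) (hne' : S'.Nonempty) :
    (rt n (volume.real S) + rt n (volume.real S')) ^ n ≤ volume.real (S + S') := by
  obtain ⟨a, ha⟩ := hne
  obtain ⟨b, hb⟩ := hne'
  have hG : IsCompact (S + S') := hSc.add hS'c
  have hvadd : ∀ (z : Fin n → ℝ) (A : Set (Fin n → ℝ)), volume.real (z +ᵥ A) = volume.real A :=
    fun z A => by rw [measureReal_def, measure_vadd, measureReal_def]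
  rcases (rt_nonneg (n := n) (measureReal_nonneg (μ := volume) (s := S))).eq_or_lt with h0 | h0
  · rw [← h0, zero_add, rt_pow hn measureReal_nonneg, ← hvadd a S']
    exact measureReal_mono (fun x ⟨y, hy, hx⟩ => hx ▸ add_mem_add ha hy) hG.measure_lt_top.ne
  rcases (rt_nonneg (n := n) (measureReal_nonneg (μ := volume) (s := S'))).eq_or_lt with h1 | h1
  · rw [← h1, add_zero, rt_pow hn measureReal_nonneg, ← hvadd b S]
    refine measureReal_mono (fun x ⟨y, hy, hx⟩ => ?_) hG.measure_lt_top.ne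
    subst hx
    simp only [vadd_eq_add, add_comm b y]
    exact add_mem_add hy hb
  have h := Vale.P254.brunn_minkowski (A := -a +ᵥ S) (B := -b +ᵥ S')
    (G := -(a + b) +ᵥ (S + S')) (hSc.vadd _) (hS'c.vadd _) (hS.vadd _) (hS'.vadd _)
    ⟨a, ha, by simp⟩ ⟨b, hb, by simp⟩ (hG.vadd _) h0 h1 (zero_le_one (α := ℝ))
    (zero_le_one (α := ℝ)) (by norm_num)
    (by rw [hvadd, rt_pow hn measureReal_nonneg])
    (by rw [hvadd, rt_pow hn measureReal_nonneg])
    (by
      rintro _ ⟨x, hx, rfl⟩ _ ⟨y, hy, rfl⟩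
      refine ⟨x + y, add_mem_add hx hy, ?_⟩
      simp only [vadd_eq_add, one_smul]
      abel)
  simpa [hvadd] using h

theorem convex_lvl {K : Set (Fin (n + 1) → ℝ)} (hc : Convex ℝ K) (s : ℝ) : Convex ℝ (lvl K s) := by
  refine (hc.inter (hc.translate_preimage_left (s • e0))).linear_image
    (LinearMap.funLeft ℝ ℝ (Fin.succ : Fin n → Fin (n + 1)))

theorem isCompact_lvl {K : Set (Fin (n + 1) → ℝ)} (hK : IsCompact K) (s : ℝ) : IsCompact (lvl K s) :=
  (hK.inter_right (hK.isClosed.preimage (by fun_prop))).image continuous_tl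

theorem lvl_subset_proj (K : Set (Fin (n + 1) → ℝ)) (s : ℝ) : lvl K s ⊆ proj K := image_mono inter_subset_left

theorem lvl_zero (K : Set (Fin (n + 1) → ℝ)) : lvl K 0 = proj K := by simp [lvl, proj]

theorem lvl_anti {K : Set (Fin (n + 1) → ℝ)} (hc : Convex ℝ K) {s t : ℝ} (hs : 0 ≤ s) (hst : s ≤ t) :
    lvl K t ⊆ lvl K s := by
  rintro _ ⟨x, ⟨hx, hx'⟩, rfl⟩
  refine ⟨x, ⟨hx, ?_⟩, rfl⟩
  show x + s • e0 ∈ K
  rcases (hs.trans hst).eq_or_lt with h | h
  · simpa [show s = 0 by linarith] using hx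
  · have := hc.add_smul_mem hx hx' (t := s / t) ⟨div_nonneg hs h.le, (div_le_one h).2 hst⟩
    rwa [smul_smul, div_mul_cancel₀ _ h.ne'] at this

theorem lvl_add_subset (K L : Set (Fin (n + 1) → ℝ)) (s r : ℝ) : lvl K s + lvl L r ⊆ lvl (K + L) (s + r) := by
  rintro _ ⟨_, ⟨x, ⟨hx, hx'⟩, rfl⟩, _, ⟨z, ⟨hz, hz'⟩, rfl⟩, rfl⟩
  refine ⟨x + z, ⟨add_mem_add hx hz, ?_⟩, by funext i; simp [tl]⟩
  show x + z + (s + r) • e0 ∈ K + L
  rw [add_smul, add_add_add_comm]
  exact add_mem_add hx' hz'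

/-- Volume through the areas of the levels. -/
theorem lintegral_lvl {K : Set (Fin (n + 1) → ℝ)} (hc : Convex ℝ K) (hK : IsCompact K) :
    ∫⁻ s in Ici (0 : ℝ), volume (lvl K s) = volume K := by
  obtain ⟨hv, hm⟩ := volume_eq_lintegral_fib hK.isClosed.measurableSet
  have hfin : ∀ y, volume (fib K y) ≠ ⊤ := fun y => (isCompact_fib hK y).measure_lt_top.ne
  have h : ∫⁻ y : (Fin n → ℝ), ENNReal.ofReal (volume.real (fib K y))
      = ∫⁻ s in Ioi (0 : ℝ), volume {y : (Fin n → ℝ) | s ≤ volume.real (fib K y)} :=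
    lintegral_eq_lintegral_meas_le volume (ae_of_all _ fun y => measureReal_nonneg)
      hm.ennreal_toReal.aemeasurable
  simp only [measureReal_def, ENNReal.ofReal_toReal (hfin _)] at h
  rw [hv, h, ← Measure.restrict_congr_set (Ioi_ae_eq_Ici (μ := volume))]
  refine setLIntegral_congr_fun measurableSet_Ioi fun s hs => ?_
  congr 1
  ext y
  show y ∈ lvl K s ↔ s ≤ (volume (fib K y)).toReal
  constructor
  · rintro ⟨x, ⟨hx, hx'⟩, rfl⟩
    have h1 : x 0 ∈ fib K (tl x) := by simpa [fib, cons_tl] using hx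
    have h2 : x 0 + s ∈ fib K (tl x) := by
      show (Fin.cons (x 0 + s) (tl x) : (Fin (n + 1) → ℝ)) ∈ K
      rw [← cons_add_axis, cons_tl]; exact hx'
    obtain ⟨a, b, hab, e⟩ := fib_eq_Icc hc hK ⟨_, h1⟩
    rw [e] at h1 h2 ⊢
    rw [Real.volume_Icc, ENNReal.toReal_ofReal (by linarith)]
    linarith [h1.1, h2.2]
  · intro hy
    have hne : (fib K y).Nonempty := nonempty_iff_ne_empty.2 fun h => by
      rw [h] at hy; simp at hy; exact absurd hy (not_le.2 hs)
    obtain ⟨a, b, hab, e⟩ := fib_eq_Icc hc hK hne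
    rw [e, Real.volume_Icc, ENNReal.toReal_ofReal (by linarith)] at hy
    have h1 : a ∈ fib K y := by rw [e]; exact left_mem_Icc.2 hab
    have h2 : a + s ∈ fib K y := by rw [e]; exact ⟨by linarith [mem_Ioi.1 hs], by linarith⟩
    refine ⟨Fin.cons a y, ⟨h1, ?_⟩, tl_cons a y⟩
    show Fin.cons a y + s • e0 ∈ K
    rw [cons_add_axis]; exact h2

/-- One-dimensional Brunn-Minkowski for sets downward closed in `[0, ∞)` containing zero. -/
theorem volume_add_le_of_down {S T U : Set ℝ} (hS0 : (0 : ℝ) ∈ S) (hT0 : (0 : ℝ) ∈ T)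
    (hSnn : S ⊆ Ici 0) (hTnn : T ⊆ Ici 0) (hS : ∀ s ∈ S, Icc 0 s ⊆ S)
    (h : S + T ⊆ U) : volume S + volume T ≤ volume U := by
  have key : ∀ s ∈ S, ENNReal.ofReal s + volume T ≤ volume U := by
    intro s hs
    have hsub : Ico 0 s ∪ (s +ᵥ T) ⊆ U := by
      rintro x (hx | ⟨y, hy, rfl⟩)
      · exact h ⟨x, hS s hs ⟨hx.1, hx.2.le⟩, 0, hT0, add_zero x⟩
      · exact h (add_mem_add hs hy)
    refine le_trans (le_of_eq ?_) (measure_mono hsub)
    rw [measure_union' ?_ measurableSet_Ico, Real.volume_Ico, sub_zero, measure_vadd]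
    rw [Set.disjoint_left]
    rintro x hx ⟨y, hy, rfl⟩
    have h1 : s + y < s := hx.2
    have h2 : (0 : ℝ) ≤ y := hTnn hy
    linarith
  by_cases hU : volume U = ⊤
  · simp [hU]
  have hTU : volume T ≤ volume U := le_trans le_add_self (key 0 hS0)
  have hle : ∀ s ∈ S, s ≤ (volume U - volume T).toReal := fun s hs => by
    have hT : volume T ≠ ⊤ := ne_top_of_le_ne_top hU hTU
    have := ENNReal.le_sub_of_add_le_right hT (key s hs)
    exact (ENNReal.ofReal_le_iff_le_toReal (ENNReal.sub_ne_top hU)).1 this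
  have hsub : S ⊆ Icc 0 (volume U - volume T).toReal := fun s hs => ⟨hSnn hs, hle s hs⟩
  have h1 := measure_mono (μ := volume) hsub
  rw [Real.volume_Icc, sub_zero, ENNReal.ofReal_toReal (ENNReal.sub_ne_top hU)] at h1
  calc volume S + volume T ≤ (volume U - volume T) + volume T := add_le_add h1 le_rfl
    _ = volume U := tsub_add_cancel_of_le hTU

/-- Superadditivity of integrals of antitone functions on the half line. -/
theorem lintegral_add_le_of_levels {α β γ : ℝ → ℝ} (hα : AntitoneOn α (Ici 0))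
    (hβ : AntitoneOn β (Ici 0)) (hγ : AntitoneOn γ (Ici 0))
    (hα0 : ∀ s, 0 ≤ α s) (hβ0 : ∀ s, 0 ≤ β s) (hγ0 : ∀ s, 0 ≤ γ s)
    (hαe : α 0 = 1) (hβe : β 0 = 1)
    (h : ∀ θ > 0, ∀ s ≥ 0, ∀ r ≥ 0, θ ≤ α s → θ ≤ β r → θ ≤ γ (s + r)) :
    (∫⁻ s in Ici (0 : ℝ), ENNReal.ofReal (α s)) + ∫⁻ s in Ici (0 : ℝ), ENNReal.ofReal (β s) ≤
      ∫⁻ s in Ici (0 : ℝ), ENNReal.ofReal (γ s) := by
  have cake : ∀ f : ℝ → ℝ, AntitoneOn f (Ici 0) → (∀ s, 0 ≤ f s) →
      ∫⁻ s in Ici (0 : ℝ), ENNReal.ofReal (f s)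
        = ∫⁻ θ in Ioi (0 : ℝ), volume ({s | θ ≤ f s} ∩ Ici 0) := by
    intro f hf hf0
    rw [lintegral_eq_lintegral_meas_le _ (ae_of_all _ hf0)
      (aemeasurable_restrict_of_antitoneOn measurableSet_Ici hf)]
    refine setLIntegral_congr_fun measurableSet_Ioi fun θ _ => ?_
    exact Measure.restrict_apply' measurableSet_Ici
  have hm : ∀ f : ℝ → ℝ, Measurable fun θ : ℝ => volume ({s | θ ≤ f s} ∩ Ici 0) := fun f =>
    Antitone.measurable fun θ θ' hθ =>
      measure_mono (inter_subset_inter_left _ fun s hs => le_trans hθ hs)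
  rw [cake α hα hα0, cake β hβ hβ0, cake γ hγ hγ0, ← lintegral_add_left (hm α)]
  refine setLIntegral_mono (hm γ) fun θ hθ => ?_
  by_cases h1 : θ ≤ 1
  · refine volume_add_le_of_down ⟨by simpa [hαe] using h1, self_mem_Ici⟩
      ⟨by simpa [hβe] using h1, self_mem_Ici⟩ inter_subset_right inter_subset_right ?_ ?_
    · rintro s ⟨hs, hs0⟩ x ⟨hx0, hxs⟩
      exact ⟨le_trans hs (hα hx0 hs0 hxs), hx0⟩
    · rintro _ ⟨s, ⟨hs, hs0⟩, r, ⟨hr, hr0⟩, rfl⟩
      exact ⟨h θ hθ s hs0 r hr0 hs hr, mem_Ici.2 (add_nonneg (mem_Ici.1 hs0) (mem_Ici.1 hr0))⟩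
  · have he : ∀ f : ℝ → ℝ, AntitoneOn f (Ici 0) → f 0 = 1 → {s | θ ≤ f s} ∩ Ici 0 = ∅ := by
      intro f hf hfe
      refine eq_empty_of_forall_notMem fun s ⟨hs, hs0⟩ => h1 ?_
      have := hf self_mem_Ici hs0 hs0
      exact le_trans hs (hfe ▸ this)
    simp [he α hα hαe, he β hβ hβe]

/-- Bonnesen's inequality along the axis. -/
theorem bonnesen_axis (hn : n ≠ 0) {K L : Set (Fin (n + 1) → ℝ)} (hKc : Convex ℝ K) (hK : IsCompact K) (hLc : Convex ℝ L)
    (hL : IsCompact L) (hA : 0 < volume.real (proj K)) (hB : 0 < volume.real (proj L)) :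
    (rt n (volume.real (proj K)) + rt n (volume.real (proj L))) ^ n *
        (volume.real K / volume.real (proj K) + volume.real L / volume.real (proj L))
      ≤ volume.real (K + L) := by
  set A := volume.real (proj K)
  set B := volume.real (proj L)
  set C := (rt n A + rt n B) ^ n with hC
  have hCpos : 0 < C := by
    have := rt_pos (n := n) hA; have := rt_pos (n := n) hB; positivity
  set f : Set (Fin (n + 1) → ℝ) → ℝ → ℝ → ℝ := fun M D s => volume.real (lvl M s) / D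
  have hanti : ∀ (M : Set (Fin (n + 1) → ℝ)), Convex ℝ M → IsCompact M → ∀ D, 0 < D →
      AntitoneOn (f M D) (Ici 0) := fun M hMc hM D hD s hs t _ hst => by
    refine div_le_div_of_nonneg_right (measureReal_mono (lvl_anti hMc hs hst) ?_) hD.le
    exact (isCompact_lvl hM s).measure_lt_top.ne
  have hint : ∀ (M : Set (Fin (n + 1) → ℝ)), Convex ℝ M → IsCompact M → ∀ D, 0 < D →
      ∫⁻ s in Ici (0 : ℝ), ENNReal.ofReal (f M D s)
        = ENNReal.ofReal (volume.real M / D) := fun M hMc hM D hD => by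
    have e : ∀ s, ENNReal.ofReal (f M D s) = volume (lvl M s) * ENNReal.ofReal D⁻¹ := fun s => by
      rw [show f M D s = volume.real (lvl M s) * D⁻¹ from div_eq_mul_inv _ _,
        ENNReal.ofReal_mul measureReal_nonneg, measureReal_def,
        ENNReal.ofReal_toReal (isCompact_lvl hM s).measure_lt_top.ne]
    simp only [e]
    rw [lintegral_mul_const' _ _ ENNReal.ofReal_ne_top, lintegral_lvl hMc hM, div_eq_mul_inv,
      ENNReal.ofReal_mul measureReal_nonneg, measureReal_def,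
      ENNReal.ofReal_toReal hM.measure_lt_top.ne]
  have hKL : IsCompact (K + L) := hK.add hL
  have h := lintegral_add_le_of_levels (hanti K hKc hK A hA) (hanti L hLc hL B hB)
    (hanti _ (hKc.add hLc) hKL C hCpos) (fun s => div_nonneg measureReal_nonneg hA.le)
    (fun s => div_nonneg measureReal_nonneg hB.le) (fun s => div_nonneg measureReal_nonneg hCpos.le)
    (by simp [f, lvl_zero, A, hA.ne']) (by simp [f, lvl_zero, B, hB.ne']) ?_
  · rw [hint K hKc hK A hA, hint L hLc hL B hB, hint _ (hKc.add hLc) hKL C hCpos,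
      ← ENNReal.ofReal_add (by positivity) (by positivity),
      ENNReal.ofReal_le_ofReal_iff (by positivity), le_div_iff₀ hCpos] at h
    linarith
  intro θ hθ s _ r _ hs hr
  simp only [f, le_div_iff₀ hA, le_div_iff₀ hB, le_div_iff₀ hCpos] at hs hr ⊢
  have hne : ∀ (M : Set (Fin (n + 1) → ℝ)) (t D : ℝ), 0 < D → θ * D ≤ volume.real (lvl M t) →
      (lvl M t).Nonempty := fun M t D hD ht => nonempty_iff_ne_empty.2 fun h => by
    rw [h, measureReal_empty] at ht
    nlinarith [mul_pos hθ hD]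
  refine le_trans ?_ (le_trans (root_bm hn (convex_lvl hKc s) (isCompact_lvl hK s)
    (convex_lvl hLc r) (isCompact_lvl hL r) (hne K s A hA hs) (hne L r B hB hr))
    (measureReal_mono (lvl_add_subset K L s r) (isCompact_lvl hKL _).measure_lt_top.ne))
  have h1 : rt n θ * rt n A ≤ rt n (volume.real (lvl K s)) := by
    rw [← rt_mul hθ.le hA.le]; exact rt_mono (mul_nonneg hθ.le hA.le) hs
  have h2 : rt n θ * rt n B ≤ rt n (volume.real (lvl L r)) := by
    rw [← rt_mul hθ.le hB.le]; exact rt_mono (mul_nonneg hθ.le hB.le) hr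
  have := rt_nonneg (n := n) hθ.le
  have := rt_nonneg (n := n) hA.le
  have := rt_nonneg (n := n) hB.le
  calc θ * C = (rt n θ * rt n A + rt n θ * rt n B) ^ n := by
        rw [hC, ← mul_add, mul_pow, rt_pow hn hθ.le]
    _ ≤ _ := pow_le_pow_left₀ (by positivity) (add_le_add h1 h2) n

end

end Vale.Agent.P237.Gen.Mx
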